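import Mathlib

/-!
P160, pool job 293, piece SS-1: the abstract chain lemma.

Weights `q S S' ≥ 0` on a finite set `Ω`, a level function `f` that every move strictly raises,
a size function `sz` that every move keeps or raises by one, entry weight at most `1 / 2`,
the balance identity `in S - out S = (sz S - n / 2) / n` and `out S ≤ n`.  Then the total
outgoing weight of the states of one level `f S = x` with `sz S ≥ n / 2 - sqrt n` is at most
`10 * |Ω| / sqrt n`.

Proof: run the lazy chain `u (k+1) S = u k S * (1 - out S / n) + (1 / n) * ∑ S', q S' S * u k S'`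
from `u 0 = 1`.  The profile `psi k (sz S)` is a lower bound for `u k S` for `k ≤ n sqrt n`,
so `u k S ≥ 1 / 5` on the states in question; and the mass of `{f ≤ x}` drops in every step by
at least `(1 / n) * ∑ over {f = x} of u k S * out S`.
-/

namespace Vale.Agent.Lib.P160.H87

open Finset

noncomputable section

variable {Ω : Type} [Fintype Ω]

/-- mass of the lazy chain after `k` steps, started from the counting measure (`a = 1 / n`) -/
def uu (q : Ω → Ω → ℝ) (a : ℝ) : ℕ → Ω → ℝ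
  | 0, _ => 1
  | (k + 1), S => uu q a k S * (1 - (∑ S', q S S') * a) + a * ∑ S', q S' S * uu q a k S'

theorem uu_succ (q : Ω → Ω → ℝ) (a : ℝ) (k : ℕ) (S : Ω) :
    uu q a (k + 1) S
      = uu q a k S * (1 - (∑ S', q S S') * a) + a * ∑ S', q S' S * uu q a k S' := rfl

theorem uu_zero (q : Ω → Ω → ℝ) (a : ℝ) (S : Ω) : uu q a 0 S = 1 := rfl

/-- the comparison profile -/
def psi (N a : ℝ) (k : ℕ) (t : ℝ) : ℝ :=
  Real.exp ((k : ℝ) * (t - N / 2) * (a * a) - (k : ℝ) * ((k : ℝ) - 1) / 4 * (a * a * a)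
    - (k : ℝ) * (a * a))

theorem psi_zero (N a t : ℝ) : psi N a 0 t = 1 := by
  simp [psi]

theorem psi_succ (N a : ℝ) (k : ℕ) (t : ℝ) :
    psi N a (k + 1) t
      = psi N a k t * Real.exp ((t - N / 2) * (a * a) - (k : ℝ) / 2 * (a * a * a) - a * a) := by
  unfold psi
  rw [← Real.exp_add]
  congr 1
  push_cast
  ring

theorem psi_pred (N a : ℝ) (k : ℕ) (t : ℝ) :
    psi N a k (t - 1) = psi N a k t * Real.exp (-((k : ℝ) * (a * a))) := by
  unfold psi
  rw [← Real.exp_add]
  congr 1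
  ring

theorem uu_nonneg (q : Ω → Ω → ℝ) (a : ℝ) (ha : 0 ≤ a) (hq0 : ∀ S S', 0 ≤ q S S')
    (hout : ∀ S, (∑ S', q S S') * a ≤ 1) : ∀ (k : ℕ) (S : Ω), 0 ≤ uu q a k S := by
  intro k
  induction k with
  | zero =>
    intro S
    rw [uu_zero]
    exact zero_le_one
  | succ k ih =>
    intro S
    rw [uu_succ]
    have h1 : 0 ≤ 1 - (∑ S', q S S') * a := by linarith [hout S]
    have h2 : 0 ≤ ∑ S', q S' S * uu q a k S' :=
      Finset.sum_nonneg (fun S' _ => mul_nonneg (hq0 S' S) (ih S'))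
    have h3 := mul_nonneg (ih S) h1
    have h4 := mul_nonneg ha h2
    linarith

/-- the profile is a lower bound for the chain as long as `k ≤ n sqrt n` -/
theorem psi_le_uu (q : Ω → Ω → ℝ) (sz : Ω → ℕ) (N a s : ℝ)
    (hs : 4 ≤ s) (hN : N = s * s) (hNa : N * a = 1)
    (hq0 : ∀ S S', 0 ≤ q S S')
    (hsz : ∀ S' S, q S' S ≠ 0 → sz S' = sz S ∨ sz S' + 1 = sz S)
    (hent : ∀ S, ∑ S' ∈ univ.filter (fun S' => sz S' + 1 = sz S), q S' S ≤ 1 / 2)
    (hbal : ∀ S, ∑ S', q S' S - ∑ S', q S S' = ((sz S : ℝ) - N / 2) * a)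
    (hout : ∀ S, ∑ S', q S S' ≤ N) (hszn : ∀ S, (sz S : ℝ) ≤ N) :
    ∀ k : ℕ, (k : ℝ) ≤ N * s → ∀ S, psi N a k (sz S) ≤ uu q a k S := by
  have hNpos : 0 < N := by rw [hN]; nlinarith
  have ha : 0 < a := by
    by_contra h
    push Not at h
    nlinarith
  have hsa : s * a ≤ 1 / 4 := by
    have h1 : s * (s * a) = 1 := by rw [← mul_assoc, ← hN]; exact hNa
    by_contra h
    push Not at h
    nlinarith
  have ha16 : a ≤ 1 / 16 := by
    have h1 : (16 : ℝ) ≤ N := by rw [hN]; nlinarith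
    by_contra h
    push Not at h
    nlinarith
  intro k
  induction k with
  | zero =>
    intro _ S
    rw [psi_zero, uu_zero]
  | succ k ih =>
    intro hk S
    have hk' : (k : ℝ) ≤ N * s := by push_cast at hk; linarith
    have ihS : ∀ S', psi N a k (sz S') ≤ uu q a k S' := ih hk'
    have hk0 : (0 : ℝ) ≤ k := Nat.cast_nonneg k
    have hkaa : 0 ≤ (k : ℝ) * (a * a) := mul_nonneg hk0 (mul_nonneg ha.le ha.le)
    have hkap : (k : ℝ) * (a * a) ≤ s * a := by
      have h1 : (k : ℝ) * (a * a) ≤ (N * s) * (a * a) :=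
        mul_le_mul_of_nonneg_right hk' (mul_nonneg ha.le ha.le)
      have h2 : (N * s) * (a * a) = (N * a) * (s * a) := by ring
      rw [h2, hNa, one_mul] at h1
      exact h1
    obtain ⟨P, hP⟩ : ∃ P : ℝ, P = psi N a k (sz S) := ⟨_, rfl⟩
    have hPpos : 0 < P := by rw [hP]; exact Real.exp_pos _
    obtain ⟨e, he⟩ : ∃ e : ℝ, e = Real.exp (-((k : ℝ) * (a * a))) := ⟨_, rfl⟩
    have he1 : e ≤ 1 := by
      rw [he]
      apply Real.exp_le_one_iff.2
      linarith
    have he2 : 1 - (k : ℝ) * (a * a) ≤ e := by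
      rw [he]
      have := Real.add_one_le_exp (-((k : ℝ) * (a * a)))
      linarith
    -- the inflow
    have hpt : ∀ S' ∈ (univ : Finset Ω),
        q S' S * P - (if sz S' + 1 = sz S then q S' S * (P * (1 - e)) else 0)
          ≤ q S' S * uu q a k S' := by
      intro S' _
      by_cases hq : q S' S = 0
      · rw [hq]
        simp
      · rcases hsz S' S hq with h | h
        · have hne : ¬ (sz S' + 1 = sz S) := by omega
          rw [if_neg hne, sub_zero]
          have h1 := ihS S'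
          rw [h, ← hP] at h1
          exact mul_le_mul_of_nonneg_left h1 (hq0 S' S)
        · rw [if_pos h]
          have h1 := ihS S'
          have hcast : (sz S' : ℝ) = (sz S : ℝ) - 1 := by
            rw [← h]
            push_cast
            ring
          rw [hcast, psi_pred, ← hP, ← he] at h1
          have h2 := mul_le_mul_of_nonneg_left h1 (hq0 S' S)
          calc q S' S * P - q S' S * (P * (1 - e)) = q S' S * (P * e) := by ring
            _ ≤ _ := h2
    have hsum := Finset.sum_le_sum hpt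
    rw [Finset.sum_sub_distrib, ← Finset.sum_mul, ← Finset.sum_filter, ← Finset.sum_mul] at hsum
    obtain ⟨inn, hinn⟩ : ∃ inn : ℝ, inn = ∑ S', q S' S := ⟨_, rfl⟩
    obtain ⟨out, hout'⟩ : ∃ out : ℝ, out = ∑ S', q S S' := ⟨_, rfl⟩
    obtain ⟨En, hEn⟩ : ∃ En : ℝ, En = ∑ S' ∈ univ.filter (fun S' => sz S' + 1 = sz S), q S' S :=
      ⟨_, rfl⟩
    obtain ⟨j, hj⟩ : ∃ j : ℝ, j = (sz S : ℝ) := ⟨_, rfl⟩
    have hEn0 : 0 ≤ En := by
      rw [hEn]
      exact Finset.sum_nonneg (fun S' _ => hq0 S' S)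
    have hEn1 : En ≤ 1 / 2 := by rw [hEn]; exact hent S
    have hbalS : inn - out = (j - N / 2) * a := by rw [hinn, hout', hj]; exact hbal S
    have houtS : out * a ≤ 1 := by
      have h1 : out ≤ N := by rw [hout']; exact hout S
      have h2 := mul_le_mul_of_nonneg_right h1 ha.le
      rw [hNa] at h2
      exact h2
    have hj0 : 0 ≤ j := by rw [hj]; exact Nat.cast_nonneg _
    have hjN : j ≤ N := by rw [hj]; exact hszn S
    rw [← hinn, ← hEn] at hsum
    -- lower bound for the next value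
    have hlow : P * (1 + (j - N / 2) * (a * a) - (k : ℝ) / 2 * (a * a * a)) ≤ uu q a (k + 1) S := by
      rw [uu_succ, ← hout']
      have h1 : P * (1 - out * a) ≤ uu q a k S * (1 - out * a) := by
        have h0 := ihS S
        rw [← hP] at h0
        exact mul_le_mul_of_nonneg_right h0 (by linarith)
      have h2 : a * (inn * P - En * (P * (1 - e))) ≤ a * ∑ S', q S' S * uu q a k S' :=
        mul_le_mul_of_nonneg_left hsum ha.le
      have h3 : En * (P * (1 - e)) ≤ 1 / 2 * (P * ((k : ℝ) * (a * a))) := by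
        have h31 : 0 ≤ P * (1 - e) := mul_nonneg hPpos.le (by linarith)
        have h32 : P * (1 - e) ≤ P * ((k : ℝ) * (a * a)) :=
          mul_le_mul_of_nonneg_left (by linarith) hPpos.le
        have h33 : En * (P * (1 - e)) ≤ 1 / 2 * (P * (1 - e)) :=
          mul_le_mul_of_nonneg_right hEn1 h31
        linarith
      have h4 : a * (1 / 2 * (P * ((k : ℝ) * (a * a)))) = P * ((k : ℝ) / 2 * (a * a * a)) := by ring
      have h5 : a * (En * (P * (1 - e))) ≤ P * ((k : ℝ) / 2 * (a * a * a)) := by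
        rw [← h4]
        exact mul_le_mul_of_nonneg_left h3 ha.le
      have h6 : P * (1 + (j - N / 2) * (a * a) - (k : ℝ) / 2 * (a * a * a))
          = P * (1 - out * a) + a * (inn * P) - P * ((k : ℝ) / 2 * (a * a * a)) := by
        have : inn = out + (j - N / 2) * a := by linarith
        rw [this]
        ring
      have h7 : a * (inn * P - En * (P * (1 - e))) = a * (inn * P) - a * (En * (P * (1 - e))) := by
        ring
      linarith
    -- the profile grows by at most that factor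
    obtain ⟨y, hy⟩ : ∃ y : ℝ, y = (j - N / 2) * (a * a) - (k : ℝ) / 2 * (a * a * a) - a * a :=
      ⟨_, rfl⟩
    have hyf : y = a * ((j - N / 2) * a - (k : ℝ) * (a * a) / 2 - a) := by rw [hy]; ring
    have htau1 : (j - N / 2) * a ≤ 1 / 2 := by
      have h1 : (j - N / 2) * a ≤ (N - N / 2) * a := mul_le_mul_of_nonneg_right (by linarith) ha.le
      have h2 : (N - N / 2) * a = (N * a) / 2 := by ring
      rw [h2, hNa] at h1
      exact h1
    have htau2 : -(1 / 2) ≤ (j - N / 2) * a := by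
      have h1 : (0 - N / 2) * a ≤ (j - N / 2) * a := mul_le_mul_of_nonneg_right (by linarith) ha.le
      have h2 : (0 - N / 2) * a = -((N * a) / 2) := by ring
      rw [h2, hNa] at h1
      linarith
    have hb : |(j - N / 2) * a - (k : ℝ) * (a * a) / 2 - a| ≤ 1 := by
      rw [abs_le]
      constructor
      · linarith
      · linarith
    have hy1 : |y| ≤ a := by
      rw [hyf, abs_mul, abs_of_pos ha]
      exact mul_le_of_le_one_right ha.le hb
    have hy2 : y ^ 2 ≤ a * a := by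
      have h1 := sq_le_sq' (neg_le_of_abs_le hy1) (le_of_abs_le hy1)
      nlinarith
    have hexp : Real.exp y ≤ 1 + y + y ^ 2 := by
      have h1 := Real.abs_exp_sub_one_sub_id_le (x := y) (by linarith)
      have h2 := le_of_abs_le h1
      linarith
    have hfin : psi N a (k + 1) (sz S) ≤ P * (1 + (j - N / 2) * (a * a) - (k : ℝ) / 2 * (a * a * a)) := by
      rw [psi_succ, ← hP, ← hj, ← hy]
      apply mul_le_mul_of_nonneg_left _ hPpos.le
      rw [hy] at hexp hy2 ⊢
      linarith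
    exact le_trans hfin hlow

theorem exp_neg_three_half : (1 : ℝ) / 5 ≤ Real.exp (-(3 / 2)) := by
  have h1 := Real.exp_one_lt_d9
  have hpos1 := Real.exp_pos 1
  have h2 : Real.exp (3 / 2) * Real.exp (3 / 2) = Real.exp 1 * Real.exp 1 * Real.exp 1 := by
    rw [← Real.exp_add, ← Real.exp_add, ← Real.exp_add]
    norm_num
  have hpos := Real.exp_pos (3 / 2 : ℝ)
  have h3 : Real.exp 1 * Real.exp 1 < 7.4 := by nlinarith
  have h4 : Real.exp 1 * Real.exp 1 * Real.exp 1 < 25 := by nlinarith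
  have h5 : Real.exp (3 / 2) ≤ 5 := by
    by_contra h
    push Not at h
    nlinarith
  rw [Real.exp_neg]
  rw [div_le_iff₀ (by norm_num : (0 : ℝ) < 5)]
  have h6 : (Real.exp (3 / 2))⁻¹ * Real.exp (3 / 2) = 1 := inv_mul_cancel₀ hpos.ne'
  have h7 : 0 < (Real.exp (3 / 2))⁻¹ := inv_pos.2 hpos
  nlinarith

/-- on the large states the chain keeps mass at least `1 / 5` -/
theorem uu_ge_fifth (q : Ω → Ω → ℝ) (sz : Ω → ℕ) (N a s : ℝ)
    (hs : 4 ≤ s) (hN : N = s * s) (hNa : N * a = 1)
    (hq0 : ∀ S S', 0 ≤ q S S')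
    (hsz : ∀ S' S, q S' S ≠ 0 → sz S' = sz S ∨ sz S' + 1 = sz S)
    (hent : ∀ S, ∑ S' ∈ univ.filter (fun S' => sz S' + 1 = sz S), q S' S ≤ 1 / 2)
    (hbal : ∀ S, ∑ S', q S' S - ∑ S', q S S' = ((sz S : ℝ) - N / 2) * a)
    (hout : ∀ S, ∑ S', q S S' ≤ N) (hszn : ∀ S, (sz S : ℝ) ≤ N)
    (k : ℕ) (hk : (k : ℝ) ≤ N * s) (S : Ω) (hS : N / 2 - s ≤ sz S) :
    1 / 5 ≤ uu q a k S := by
  have hNpos : 0 < N := by rw [hN]; nlinarith
  have ha : 0 < a := by
    by_contra h
    push Not at h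
    nlinarith
  have hsa : s * a ≤ 1 / 4 := by
    have h1 : s * (s * a) = 1 := by rw [← mul_assoc, ← hN]; exact hNa
    by_contra h
    push Not at h
    nlinarith
  have hk0 : (0 : ℝ) ≤ k := Nat.cast_nonneg k
  have haa : 0 ≤ a * a := mul_nonneg ha.le ha.le
  have haaa : 0 ≤ a * a * a := mul_nonneg haa ha.le
  have h3 : (k : ℝ) * (a * a) ≤ 1 / 4 := by
    have h1 : (k : ℝ) * (a * a) ≤ (N * s) * (a * a) := mul_le_mul_of_nonneg_right hk haa
    have h2 : (N * s) * (a * a) = (N * a) * (s * a) := by ring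
    rw [h2, hNa, one_mul] at h1
    linarith
  have h2 : (k : ℝ) * ((k : ℝ) - 1) / 4 * (a * a * a) ≤ 1 / 4 := by
    have hkk : (k : ℝ) * ((k : ℝ) - 1) ≤ (N * s) * (N * s) := by nlinarith
    have h21 : (N * s) * (N * s) * (a * a * a) = 1 := by
      have h22 : (N * s) * (N * s) = N * N * N := by rw [hN]; ring
      rw [h22]
      have h23 : N * N * N * (a * a * a) = (N * a) * (N * a) * (N * a) := by ring
      rw [h23, hNa]
      norm_num
    have h24 := mul_le_mul_of_nonneg_right hkk haaa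
    rw [h21] at h24
    linarith
  have h1 : -1 ≤ (k : ℝ) * ((sz S : ℝ) - N / 2) * (a * a) := by
    have hs0 : 0 ≤ s := by linarith
    have h11 : -((N * s) * s) ≤ (k : ℝ) * ((sz S : ℝ) - N / 2) := by
      have h12 : 0 ≤ (k : ℝ) * ((sz S : ℝ) - N / 2 + s) := mul_nonneg hk0 (by linarith)
      have h13 : 0 ≤ (N * s - k) * s := mul_nonneg (by linarith) hs0
      nlinarith
    have h14 := mul_le_mul_of_nonneg_right h11 haa
    have h15 : -((N * s) * s) * (a * a) = -1 := by
      have h16 : (N * s) * s = N * N := by rw [hN]; ring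
      rw [h16]
      have h17 : -(N * N) * (a * a) = -((N * a) * (N * a)) := by ring
      rw [h17, hNa]
      norm_num
    rw [h15] at h14
    exact h14
  have hpsi := psi_le_uu q sz N a s hs hN hNa hq0 hsz hent hbal hout hszn k hk S
  have hexp : Real.exp (-(3 / 2)) ≤ psi N a k (sz S) := by
    unfold psi
    apply Real.exp_le_exp.2
    linarith
  exact le_trans exp_neg_three_half (le_trans hexp hpsi)

/-- mass of `{f ≤ x}` after `k` steps -/
def mlev (q : Ω → Ω → ℝ) (a : ℝ) (f : Ω → ℝ) (x : ℝ) (k : ℕ) : ℝ :=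
  ∑ S, if f S ≤ x then uu q a k S else 0

/-- exit rate from the level `{f = x}` at step `k` -/
def glev (q : Ω → Ω → ℝ) (a : ℝ) (f : Ω → ℝ) (x : ℝ) (k : ℕ) : ℝ :=
  ∑ S, if f S = x then uu q a k S * (∑ S', q S S') else 0

/-- every level is exited once: the mass of `{f ≤ x}` drops by the exit rate -/
theorem mlev_succ_le (q : Ω → Ω → ℝ) (a : ℝ) (f : Ω → ℝ) (x : ℝ) (ha : 0 ≤ a)
    (hq0 : ∀ S S', 0 ≤ q S S') (hf : ∀ S S', q S S' ≠ 0 → f S < f S')
    (hout : ∀ S, (∑ S', q S S') * a ≤ 1) (k : ℕ) :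
    mlev q a f x (k + 1) ≤ mlev q a f x k - a * glev q a f x k := by
  have hu := uu_nonneg q a ha hq0 hout k
  have hpt : ∀ S ∈ (univ : Finset Ω), (if f S ≤ x then uu q a (k + 1) S else 0)
      = (if f S ≤ x then uu q a k S else 0)
        - a * (if f S ≤ x then uu q a k S * (∑ S', q S S') else 0)
        + a * ∑ S', (if f S ≤ x then q S' S * uu q a k S' else 0) := by
    intro S _
    by_cases h : f S ≤ x
    · simp only [h, if_true]
      rw [uu_succ]
      ring
    · simp [h]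
  have e1 : mlev q a f x (k + 1) = mlev q a f x k
      - a * (∑ S, if f S ≤ x then uu q a k S * (∑ S', q S S') else 0)
      + a * ∑ S', ∑ S, (if f S ≤ x then q S' S * uu q a k S' else 0) := by
    unfold mlev
    rw [Finset.sum_congr rfl hpt, Finset.sum_add_distrib, Finset.sum_sub_distrib,
      ← Finset.mul_sum, ← Finset.mul_sum, Finset.sum_comm]
  have e2 : ∑ S', ∑ S, (if f S ≤ x then q S' S * uu q a k S' else 0)
      ≤ ∑ S', if f S' < x then uu q a k S' * (∑ S, q S' S) else 0 := by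
    apply Finset.sum_le_sum
    intro S' _
    by_cases h : f S' < x
    · rw [if_pos h, Finset.mul_sum]
      apply Finset.sum_le_sum
      intro S _
      have h0 : 0 ≤ q S' S * uu q a k S' := mul_nonneg (hq0 S' S) (hu S')
      by_cases h' : f S ≤ x
      · rw [if_pos h']
        exact le_of_eq (mul_comm _ _)
      · rw [if_neg h']
        rw [mul_comm]
        exact h0
    · rw [if_neg h]
      apply le_of_eq
      apply Finset.sum_eq_zero
      intro S _
      by_cases h' : f S ≤ x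
      · rw [if_pos h']
        have hq : q S' S = 0 := by
          by_contra hne
          have := hf S' S hne
          exact h (lt_of_lt_of_le this h')
        rw [hq, zero_mul]
      · rw [if_neg h']
  have e3 : (∑ S', if f S' < x then uu q a k S' * (∑ S, q S' S) else 0)
      = (∑ S, if f S ≤ x then uu q a k S * (∑ S', q S S') else 0) - glev q a f x k := by
    unfold glev
    rw [← Finset.sum_sub_distrib]
    apply Finset.sum_congr rfl
    intro S _
    rcases lt_trichotomy (f S) x with h | h | h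
    · rw [if_pos h, if_pos h.le, if_neg h.ne, sub_zero]
    · rw [if_neg (by rw [h]; exact lt_irrefl x), if_pos h.le, if_pos h, sub_self]
    · rw [if_neg (not_lt.2 h.le), if_neg (not_le.2 h), if_neg h.ne', sub_zero]
  rw [e1]
  have e4 := mul_le_mul_of_nonneg_left e2 ha
  rw [e3] at e4
  have e5 : a * ((∑ S, if f S ≤ x then uu q a k S * (∑ S', q S S') else 0) - glev q a f x k)
      = a * (∑ S, if f S ≤ x then uu q a k S * (∑ S', q S S') else 0) - a * glev q a f x k := by
    ring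
  linarith

theorem mlev_tel (q : Ω → Ω → ℝ) (a : ℝ) (f : Ω → ℝ) (x : ℝ) (ha : 0 ≤ a)
    (hq0 : ∀ S S', 0 ≤ q S S') (hf : ∀ S S', q S S' ≠ 0 → f S < f S')
    (hout : ∀ S, (∑ S', q S S') * a ≤ 1) (K : ℕ) :
    mlev q a f x K + a * ∑ k ∈ Finset.range K, glev q a f x k ≤ mlev q a f x 0 := by
  induction K with
  | zero => simp
  | succ K ih =>
    rw [Finset.sum_range_succ]
    have h := mlev_succ_le q a f x ha hq0 hf hout K
    have h2 : a * (∑ k ∈ Finset.range K, glev q a f x k + glev q a f x K)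
        = a * ∑ k ∈ Finset.range K, glev q a f x k + a * glev q a f x K := by ring
    linarith

/-- SS-1: the abstract chain lemma. -/
theorem chain_level {Ω : Type} [Fintype Ω] [DecidableEq Ω] (q : Ω → Ω → ℝ) (f : Ω → ℝ)
    (sz : Ω → ℕ) (n : ℕ) (hn : 16 ≤ n)
    (hq0 : ∀ S S', 0 ≤ q S S') (hf : ∀ S S', q S S' ≠ 0 → f S < f S')
    (hsz : ∀ S' S, q S' S ≠ 0 → sz S' = sz S ∨ sz S' + 1 = sz S)
    (hent : ∀ S, ∑ S' ∈ univ.filter (fun S' => sz S' + 1 = sz S), q S' S ≤ 1 / 2)
    (hbal : ∀ S, ∑ S', q S' S - ∑ S', q S S' = ((sz S : ℝ) - n / 2) / n)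
    (hout : ∀ S, ∑ S', q S S' ≤ n) (hszn : ∀ S, sz S ≤ n) (x : ℝ) :
    Real.sqrt n * ∑ S ∈ univ.filter (fun S => f S = x ∧ (n : ℝ) / 2 - Real.sqrt n ≤ sz S),
      ∑ S', q S S' ≤ 10 * Fintype.card Ω := by
  obtain ⟨N, hNdef⟩ : ∃ N : ℝ, N = (n : ℝ) := ⟨_, rfl⟩
  obtain ⟨s, hsdef⟩ : ∃ s : ℝ, s = Real.sqrt N := ⟨_, rfl⟩
  have hN16 : (16 : ℝ) ≤ N := by rw [hNdef]; exact_mod_cast hn
  have hNpos : 0 < N := by linarith
  have hN : N = s * s := by rw [hsdef]; exact (Real.mul_self_sqrt hNpos.le).symm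
  have hs0 : 0 ≤ s := by rw [hsdef]; exact Real.sqrt_nonneg _
  have hs : 4 ≤ s := by
    by_contra h
    push Not at h
    nlinarith
  obtain ⟨a, hadef⟩ : ∃ a : ℝ, a = N⁻¹ := ⟨_, rfl⟩
  have hNa : N * a = 1 := by rw [hadef]; exact mul_inv_cancel₀ hNpos.ne'
  have ha : 0 < a := by rw [hadef]; exact inv_pos.2 hNpos
  have hbal' : ∀ S, ∑ S', q S' S - ∑ S', q S S' = ((sz S : ℝ) - N / 2) * a := by
    intro S
    rw [hbal S, hadef, hNdef, div_eq_mul_inv]
  have hout' : ∀ S, ∑ S', q S S' ≤ N := by intro S; rw [hNdef]; exact hout S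
  have hszn' : ∀ S, (sz S : ℝ) ≤ N := by intro S; rw [hNdef]; exact_mod_cast hszn S
  have houta : ∀ S, (∑ S', q S S') * a ≤ 1 := by
    intro S
    have h2 := mul_le_mul_of_nonneg_right (hout' S) ha.le
    rw [hNa] at h2
    exact h2
  rw [← hNdef, ← hsdef]
  obtain ⟨T, hT⟩ : ∃ T : ℝ, T = ∑ S ∈ univ.filter (fun S => f S = x ∧ N / 2 - s ≤ sz S),
      ∑ S', q S S' := ⟨_, rfl⟩
  rw [← hT]
  have hT0 : 0 ≤ T := by
    rw [hT]
    exact Finset.sum_nonneg (fun S _ => Finset.sum_nonneg (fun S' _ => hq0 S S'))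
  obtain ⟨K, hK⟩ : ∃ K : ℕ, K = ⌊N * s⌋₊ := ⟨_, rfl⟩
  have hNs0 : 0 ≤ N * s := mul_nonneg hNpos.le hs0
  have hK1 : (K : ℝ) ≤ N * s := by rw [hK]; exact Nat.floor_le hNs0
  have hK2 : N * s / 2 ≤ (K : ℝ) := by
    have h1 : N * s < (K : ℝ) + 1 := by rw [hK]; exact Nat.lt_floor_add_one _
    have h2 : (64 : ℝ) ≤ N * s := by nlinarith
    linarith
  have htel := mlev_tel q a f x ha.le hq0 hf houta K
  have hmK : 0 ≤ mlev q a f x K := by
    unfold mlev
    apply Finset.sum_nonneg
    intro S _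
    by_cases h : f S ≤ x
    · rw [if_pos h]; exact uu_nonneg q a ha.le hq0 houta K S
    · rw [if_neg h]
  have hm0 : mlev q a f x 0 ≤ (Fintype.card Ω : ℝ) := by
    unfold mlev
    have h1 : ∀ S ∈ (univ : Finset Ω), (if f S ≤ x then uu q a 0 S else 0) ≤ (1 : ℝ) := by
      intro S _
      by_cases h : f S ≤ x
      · rw [if_pos h, uu_zero]
      · rw [if_neg h]; exact zero_le_one
    have h2 := Finset.sum_le_sum h1
    simpa using h2
  have hG : ∀ k ∈ Finset.range K, 1 / 5 * T ≤ glev q a f x k := by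
    intro k hk
    have hkK : k < K := Finset.mem_range.1 hk
    have hk1 : (k : ℝ) ≤ N * s := by
      have : (k : ℝ) ≤ (K : ℝ) := by exact_mod_cast hkK.le
      linarith
    unfold glev
    rw [hT, Finset.mul_sum, Finset.sum_filter]
    apply Finset.sum_le_sum
    intro S _
    have hu0 := uu_nonneg q a ha.le hq0 houta k S
    have ho0 : 0 ≤ ∑ S', q S S' := Finset.sum_nonneg (fun S' _ => hq0 S S')
    by_cases h1 : f S = x
    · rw [if_pos h1]
      by_cases h2 : N / 2 - s ≤ sz S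
      · rw [if_pos ⟨h1, h2⟩]
        have h5 := uu_ge_fifth q sz N a s hs hN hNa hq0 hsz hent hbal' hout' hszn' k hk1 S h2
        exact mul_le_mul_of_nonneg_right h5 ho0
      · rw [if_neg (fun h => h2 h.2)]
        exact mul_nonneg hu0 ho0
    · rw [if_neg h1, if_neg (fun h => h1 h.1)]
  have hsumG : (K : ℝ) * (1 / 5 * T) ≤ ∑ k ∈ Finset.range K, glev q a f x k := by
    have h1 := Finset.sum_le_sum hG
    rw [Finset.sum_const, Finset.card_range, nsmul_eq_mul] at h1
    exact h1
  have h1 : a * ((K : ℝ) * (1 / 5 * T)) ≤ (Fintype.card Ω : ℝ) := by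
    have h2 := mul_le_mul_of_nonneg_left hsumG ha.le
    linarith
  have h3 : a * ((N * s / 2) * (1 / 5 * T)) ≤ a * ((K : ℝ) * (1 / 5 * T)) := by
    apply mul_le_mul_of_nonneg_left _ ha.le
    exact mul_le_mul_of_nonneg_right hK2 (by positivity)
  have h4 : a * ((N * s / 2) * (1 / 5 * T)) = (N * a) * (s * T) / 10 := by ring
  rw [h4, hNa, one_mul] at h3
  linarith

end

end Vale.Agent.Lib.P160.H87
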